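import Vale.Agent.P366.H707.S.Smooth
import Vale.Agent.P366.Kerr.DefsG

/-! The flux at infinity of the corrected flux field, for an arbitrary difference `K - K₀`. -/

open MeasureTheory Metric Filter Topology Set
open scoped ContDiff ENNReal

noncomputable section
namespace Vale.Agent.P366.KSS

open Vale.Agent.P366 (pd E flux sphI)
open Vale.Agent.P366.H353.N
open Vale.Agent.P366.Kerr (NullCone Psi pt sp indG indK lapse tng con sgn ksL ein IsKS FutTimelike
  DECatL IsGraph IsSliceL HasDEC dif difM)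
open Vale.Agent.P366.KSN (Y dts sg BO BO_th)
open Vale.Agent.P366.KSL
open Vale.Agent.P366.SH (bet alp kb Bk)

variable {n : ℕ} {C : NullCone n} {l : Fin (n + 1) → E (n + 1) → ℝ} {V : E (n + 1) → ℝ}
  {f : E n → ℝ} {D D₀ : Stmt.Exterior n} {p : E (n + 1)} {x y : E n}

/-- `momT` is linear in the second fundamental form -/
theorem momT_dif (hg : D₀.g = D.g) (y : E n) (i j : Fin n) :
    Stmt.momT D.g D.K y i j = Stmt.momT D₀.g D₀.K y i j + difM D₀ D y i j := by
  rw [hg]
  unfold difM Stmt.momT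
  have h1 : Stmt.tr D.g (dif D₀ D) y = Stmt.tr D.g D.K y - Stmt.tr D.g D₀.K y := by
    unfold Stmt.tr dif
    simp only [mul_sub, Finset.sum_sub_distrib]
  rw [h1]
  unfold dif
  ring

theorem upD_cd (hy : 0 ≤ D.F y) (i j : Fin n) : ContDiffAt ℝ ∞ (Stmt.up D.g i j) y :=
  Vale.Agent.P366.Bridge.contDiffAt_inv_entry (A := Stmt.mat D.g)
    (fun a b => ((D.smooth a b).1).contDiffAt) (D.pos y hy).det_pos.ne' i j

theorem difM_contDiffAt (hy : 0 ≤ D.F y) (i j : Fin n) :
    ContDiffAt ℝ ∞ (fun y => difM D₀ D y i j) y := by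
  have hd : ∀ i j, ContDiffAt ℝ ∞ (fun y => dif D₀ D y i j) y := fun i j =>
    (((D.smooth i j).2).sub ((D₀.smooth i j).2)).contDiffAt
  have ht : ContDiffAt ℝ ∞ (Stmt.tr D.g (dif D₀ D)) y :=
    ContDiffAt.sum fun a _ => ContDiffAt.sum fun b _ => (upD_cd hy a b).mul (hd a b)
  exact (hd i j).sub (ht.mul ((D.smooth i j).1).contDiffAt)

/-- The flux at infinity of the corrected flux field is the energy in the frame of `(e0 a, a)`,
with the energy and the momentum of `D`. -/
theorem flux_shearG [hn : Fact (3 ≤ n)] (hS : IsSliceL C l V f D₀) (hAF₀ : D₀.IsAF)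
    (hAF : D.IsAF) (hF : D₀.F = D.F) (hg : D₀.g = D.g)
    {m : ℝ} {P : Fin n → ℝ} (hm : D.IsEnergy m) (hP : D.IsMomentum P) (a : Fin n → ℝ) :
    Tendsto (flux fun i y => Fa l V f a i y + Bk (ksL l V) f (difM D₀ D) (xi a) i y) atTop
      (𝓝 (((n : ℝ) - 1) * om n * (Shell.e0 a * m + ∑ i, a i * P i))) := by
  have h4 := af4 hS hAF₀
  obtain ⟨q, hq, o⟩ := H474.L.AF4.ord h4
  obtain ⟨R, hR, h⟩ := H474.L.farG hS
  obtain ⟨q₁, hq₁, a₁⟩ := hAF₀
  obtain ⟨q₂, hq₂, a₂⟩ := hAF
  set s := min q₁ q₂ + 1 with hs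
  have i0 : Fin n := ⟨0, by have := hn.out; omega⟩
  have hkB : ∀ i j, BO s fun y => dif D₀ D y i j := by
    intro i j
    have b1 : BO s fun y => D₀.K y i j := (KSN.BO.of_bigO (a₁ i j i0 i0).2.2.2.1).mono
      (by rw [hs]; linarith [min_le_left q₁ q₂])
    have b2 : BO s fun y => D.K y i j := (KSN.BO.of_bigO (a₂ i j i0 i0).2.2.2.1).mono
      (by rw [hs]; linarith [min_le_right q₁ q₂])
    exact b2.sub b1
  have hup0 : ∀ i j, BO 0 fun y => Stmt.up D.g i j y := fun i j => by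
    rw [← hg]
    exact (((h.BO_up o i j).mono o.hq.le).add (BO.const (kd i j))).congr (R := R)
      fun y _ => by ring
  have hg0 : ∀ i j, BO 0 fun y => D.g y i j := fun i j => by
    rw [← hg]
    exact (((h.BO_g o i j).mono o.hq.le).add (BO.const (kd i j))).congr (R := R)
      fun y _ => by ring
  have htB : BO s (Stmt.tr D.g (dif D₀ D)) :=
    BO.sum _ fun i => BO.sum _ fun j => (hup0 i j).bmul (hkB i j)
  have hdB : ∀ i j, BO s fun y => difM D₀ D y i j := fun i j =>
    (hkB i j).sub (((hg0 i j).bmul htB).congr (R := R) fun y _ => mul_comm _ _)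
  have hds : ∀ y : E n, R < ‖y‖ → ∀ i j, difM D₀ D y i j = difM D₀ D y j i := by
    intro y _ i j
    unfold difM Stmt.momT dif
    rw [(D.symm y i j).2, (D₀.symm y i j).2, (D.symm y i j).1]
  have hgf : ∀ y : E n, R < ‖y‖ → ∀ i j, D.g y i j = D₀.g y i j := fun y _ i j => by rw [hg]
  refine flux_corr (k := fun j i y => difM D₀ D y j i) (s := q + s) hS h4
    ⟨R, fun y hy j i => momT_dif hg y j i⟩ ?_
    (fun i => ?_) ⟨R, fun y hy => ⟨?_, fun i => ?_⟩⟩ (energy_eq hgf hm) hP
  · have := lt_min hq₁ hq₂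
    rw [hs]
    linarith
  · have := BO_Bk h o hdB hds (xi a) i
    exact this.congr (R := R) fun y _ => by simp only [xi, Fin.cons_succ]
  · rw [← hg]
    exact h.det_ne hy
  · exact (Bk_cd hS (h.hF y hy) (fun i j => difM_contDiffAt (by rw [← hF]; exact h.hF y hy) i j)
      (xi a) i).continuousAt

end Vale.Agent.P366.KSS
end
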