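import Vale.Agent.P366.H353.S.D

/-! The change of the energy flux density when an arbitrary symmetric tensor `k` is added to the
second fundamental form; the correction of the flux is the contraction of `k - (tr k) g`. -/

open MeasureTheory Metric Filter Topology Set
open scoped ContDiff

noncomputable section
namespace Vale.Agent.P366.SH
open Vale.Agent.P366.Stmt Vale.Agent.P366.T2 Vale.Agent.P366.GC
open Vale.Agent.P366.H896 (CR)
open Vale.Agent.P366.Kerr (pt tng con indG indK lapse ein)

variable {n : ℕ} {G : Stmt.Field (n + 1)} {f : E n → ℝ} {U : Set (E (n + 1))} {W : Set (E n)}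
  {y : E n} {h K k : Stmt.Field n} {ξ : Fin (n + 1) → ℝ}

lemma momT_add' (h K k : Stmt.Field n) :
    Stmt.momT h (add K k) = add (Stmt.momT h K) (Stmt.momT h k) := by
  funext y i j
  unfold Stmt.momT
  rw [tr_add]
  unfold add
  ring

lemma cr_tr (hM : Met h W) (hk : ∀ i j, CR 1 W fun y => k y i j) : CR 1 W (Stmt.tr h k) :=
  CR.sum _ fun i => CR.sum _ fun j => (((hM.cr_up i j).le (by norm_num))).mul (hk i j)

lemma cr_momT (hM : Met h W) (hk : ∀ i j, CR 1 W fun y => k y i j) (i j : Fin n) :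
    CR 1 W fun y => Stmt.momT h k y i j :=
  (hk i j).sub ((cr_tr hM hk).mul ((hM.sm i j).le (by norm_num)))

/-- the momentum density -/
theorem mom_addG (hM : Met h W) (hK : ∀ i j, CR 1 W fun y => K y i j)
    (hk : ∀ i j, CR 1 W fun y => k y i j) (hy : y ∈ W) (j : Fin n) :
    Stmt.mom h (add K k) j y = Stmt.mom h K j y +
      ∑ i, ∑ m, Stmt.up h i m y * cdK h (Stmt.momT h k) m i j y := by
  have e0 : ∀ K : Stmt.Field n, Stmt.mom h K j y =
      ∑ i, ∑ m, Stmt.up h i m y * cdK h (Stmt.momT h K) m i j y := fun K => rfl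
  rw [e0, e0, momT_add']
  simp only [cdK_add (cr_momT hM hK) (cr_momT hM hk) hy, mul_add, Finset.sum_add_distrib]

lemma dot2_momT (hM : Met h W) (hy : y ∈ W) (A k : Stmt.Field n) :
    dot2 h A (Stmt.momT h k) y = dot2 h A k y - Stmt.tr h k y * Stmt.tr h A y := by
  have e1 : ∀ i j, ∑ p, ∑ q, Stmt.up h i p y * Stmt.up h j q y * A y i j *
      Stmt.momT h k y p q =
      ∑ p, ∑ q, Stmt.up h i p y * Stmt.up h j q y * A y i j * k y p q -
        Stmt.tr h k y * (Stmt.up h i j y * A y i j) := by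
    intro i j
    have e2 : ∀ p, ∑ q, Stmt.up h i p y * Stmt.up h j q y * A y i j *
        (Stmt.tr h k y * h y p q) =
        Stmt.tr h k y * (A y i j * (Stmt.up h i p y * if j = p then 1 else 0)) := by
      intro p
      rw [← hM.up_g hy j p]
      simp only [Finset.mul_sum]
      exact Finset.sum_congr rfl fun q _ => by
        have hs : h y p q = h y q p := hM.symm y hy p q
        rw [hs]
        ring
    have e3 : ∑ p, ∑ q, Stmt.up h i p y * Stmt.up h j q y * A y i j *
        (Stmt.tr h k y * h y p q) = Stmt.tr h k y * (Stmt.up h i j y * A y i j) := by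
      simp only [e2]
      rw [← Finset.mul_sum, ← Finset.mul_sum]
      simp only [mul_ite, mul_one, mul_zero, Finset.sum_ite_eq, Finset.mem_univ, if_true]
      ring
    rw [← e3, ← Finset.sum_sub_distrib]
    refine Finset.sum_congr rfl fun p _ => ?_
    rw [← Finset.sum_sub_distrib]
    exact Finset.sum_congr rfl fun q _ => by unfold Stmt.momT; ring
  unfold dot2
  simp only [e1, Finset.sum_sub_distrib, ← Finset.mul_sum]
  rfl

/-- the energy density -/
theorem mu_addG (hM : Met h W) (hy : y ∈ W) :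
    Stmt.mu h (add K k) y = Stmt.mu h K y - dot2 h K (Stmt.momT h k) y -
      (Stmt.normSq h k y - Stmt.tr h k y ^ 2) / 2 := by
  unfold Stmt.mu
  rw [tr_add, normSq_add hM hy, dot2_momT hM hy]
  ring

/-- **The change of the flux density**, for an arbitrary symmetric tensor `k`. -/
theorem shear_divG (hS : Sl G f U W) (hdet : ∀ b, ∑ a, Stmt.chr G a b a (pt (f y) y) = 0)
    (hk : ∀ i j, CR 1 W fun y => k y i j) (hks : ∀ y ∈ W, ∀ i j, k y i j = k y j i)
    (ξ : Fin (n + 1) → ℝ) (hy : y ∈ W) :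
    ∑ i, Stmt.pd i (Bk G f (Stmt.momT (indG G f) k) ξ i) y = (lapse G f y)⁻¹ *
      (dens G f (add (indK G f) k) ξ y - dens G f (indK G f) ξ y +
        alp G f ξ y * (Stmt.normSq (indG G f) k y - Stmt.tr (indG G f) k y ^ 2) / 2 +
        dot2 (indG G f) (Stmt.momT (indG G f) k) (lie G f ξ) y / 2) := by
  have hM := met_h hS
  have hp := cr_momT hM hk
  have hps : ∀ y ∈ W, ∀ i j, Stmt.momT (indG G f) k y i j = Stmt.momT (indG G f) k y j i := by
    intro y hy i j
    unfold Stmt.momT
    rw [hks y hy i j, hM.symm y hy i j]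
  have hX : ∀ i, CR 1 W fun y => ∑ m, Stmt.up (indG G f) i m y *
      kb (indG G f) (Stmt.momT (indG G f) k) (bet G f ξ) m y := fun i =>
    CR.sum _ fun m => ((hM.cr_up i m).le (by norm_num)).mul (cr_kb hS hp ξ m)
  have h1 : ∀ i, Stmt.pd i (Bk G f (Stmt.momT (indG G f) k) ξ i) y = (lapse G f y)⁻¹ *
      (Stmt.pd i (fun y => ∑ m, Stmt.up (indG G f) i m y *
        kb (indG G f) (Stmt.momT (indG G f) k) (bet G f ξ) m y) y +
      (∑ m, Stmt.chr (indG G f) m i m y) * ∑ m, Stmt.up (indG G f) i m y *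
        kb (indG G f) (Stmt.momT (indG G f) k) (bet G f ξ) m y) := by
    intro i
    have a1 : HP i (Bk G f (Stmt.momT (indG G f) k) ξ i) _ y :=
      (pd_vol hS hy hdet i).mul (CR.hp (hX i) hy i)
    rw [a1.pd]
    ring
  simp only [h1]
  rw [← Finset.mul_sum, div_kb hS hp hps ξ hy]
  congr 1
  have hK : ∀ i j, CR 1 W fun y => indK G f y i j := fun i j =>
    (cr_K hS i j).le (by norm_num)
  unfold dens
  rw [mu_addG hM hy]
  simp only [mom_addG hM hK hk hy, add_mul, mul_add, Finset.sum_add_distrib]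
  ring

end Vale.Agent.P366.SH
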