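import Vale.Agent.P366.H896.S.BD
import Vale.Agent.P366.Kerr.DefsG

/-! Adding an arbitrary symmetric tensor `k` to the second fundamental form: the boundary
inequality. -/

open MeasureTheory Metric Filter Topology Set
open scoped ContDiff ENNReal

noncomputable section
namespace Vale.Agent.P366.SH

open Vale.Agent.P366 (pd E)
open Vale.Agent.P366.H353.N
open Vale.Agent.P366.H353.N.X3
open Vale.Agent.P366.Kerr (NullCone Psi pt sp sgn indG indK ksL IsKS IsGraph IsSliceL lapse resL tng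
  con alpha beta lieG inn dif difM IsRefG IsFut)
open Vale.Agent.P366.KSN (Y dts sg posU' dts_pos)
open Vale.Agent.P366.KSL (bdr_grad bdr_dF_pos tau_pos_bdr mem_Y dom_iff qT wS xi)
open Vale.Agent.P366.KSD (NN aa)

variable {n : ℕ} {C : NullCone n} {l : Fin (n + 1) → E (n + 1) → ℝ} {V : E (n + 1) → ℝ}
  {f : E n → ℝ} {D D₀ : Stmt.Exterior n} {x y : E n}

/-- the trace over the boundary is `- π(ν, ν)` -/
lemma trS_momT {g k : Stmt.Field n} {F : E n → ℝ} (hp : (Stmt.mat g y).PosDef)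
    (hF : ∃ i, Stmt.pd i F y ≠ 0) :
    Stmt.trS g k F y =
      -∑ i, ∑ j, Stmt.momT g k y i j * Stmt.nrm g F i y * Stmt.nrm g F j y := by
  have h1 : ∑ i, ∑ j, Stmt.momT g k y i j * Stmt.nrm g F i y * Stmt.nrm g F j y =
      (∑ i, ∑ j, k y i j * Stmt.nrm g F i y * Stmt.nrm g F j y) -
        Stmt.tr g k y * ∑ i, ∑ j, g y i j * Stmt.nrm g F i y * Stmt.nrm g F j y := by
    rw [Finset.mul_sum, ← Finset.sum_sub_distrib]
    refine Finset.sum_congr rfl fun i _ => ?_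
    rw [Finset.mul_sum, ← Finset.sum_sub_distrib]
    exact Finset.sum_congr rfl fun j _ => by unfold Stmt.momT; ring
  rw [h1, nrm_nrm hp hF]
  unfold Stmt.trS
  ring

/-- the boundary inequality for the vector `ξ` -/
theorem bd_genG [Fact (3 ≤ n)] {ξ : Fin (n + 1) → ℝ} (hS : IsSliceL C l V f D₀)
    (hR : IsRefG l V f ξ D₀ D) (hT : D.Trapped) {T : Ten n} (hA : T.A = C.toDat.A)
    (hb : T.b = C.toDat.b) (hx : ‖x‖ = 1) (hax : 0 ≤ ξ 0 + ∑ i : Fin n, x i * ξ i.succ) :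
    qT T x * (ξ 0 + ∑ i : Fin n, x i * ξ i.succ) ≤
      wS C l V x * (ξ 0 + ∑ i : Fin n, x i * ξ i.succ) +
        2 * (dts C.H (C.U x) x * ∑ i, Bk (ksL l V) f (difM D₀ D) ξ i (Y C.H x (C.U x)) *
          (x i - C.toDat.b x i)) := by
  have hx0 := ne_zero_of_one hx
  have h0 := posU' C hx
  obtain ⟨p, k0, hk0p, hk0, hn, pf, pu, pv, pS, hlap, hup, hnrm, hcob⟩ := bdr_pt hS hx
  have hth := KSL.theta_Y hS hA hb hx
  have hd := dts_pos C hx (le_refl (C.U x))
  have hF0 : D₀.F (Y C.H x (C.U x)) = 0 := by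
    have h := hS.bdF (C.U x • x) (smul_ne_zero h0.ne' hx0)
      (by rw [KSN.norm_smul_unit hx h0.le, KSN.U_smul C hx0 h0])
    rwa [KSN.Y_eq C hx h0] at h
  have hm := mem_Y hS.dom hx (le_refl (C.U x))
  have hmet := hS.met _ hm
  rw [← pS] at hth
  generalize Y C.H x (C.U x) = y at *
  have hF0' : D.F y = 0 := by rw [← hR.dom]; exact hF0
  have hbd := hR.bdr y hF0'
  have hn' : ∀ i : Fin n, l i.succ (pt (f y) y) = k0 * p.u i := fun i => by rw [hn i, pu i]
  have hflux := Bk_bdr (k := difM D₀ D) (ξ := ξ) (cb := fun i => x i - C.toDat.b x i) hmet hlap hup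
    hcob
  have hab := alpha_beta (ξ := ξ) hk0 hn' pf pv hlap
  rw [hR.met] at hup hnrm hflux
  rw [hR.dom] at hnrm
  -- the expansion
  have hθ := hT y hF0'
  have h2 : Stmt.thetaPlus D.g D.K D.F y = Stmt.thetaPlus D.g (add D₀.K (dif D₀ D)) D.F y :=
    thetaPlus_congrK fun i j => by unfold add dif; ring
  rw [h2, thetaPlus_add, trS_momT (D.pos y hF0'.ge) (D.dom.2.1 y hF0')] at hθ
  have hdm : Stmt.momT D.g (dif D₀ D) = difM D₀ D := rfl
  rw [hdm] at hθ
  rw [hR.met, hR.dom, hlap] at hth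
  simp only [hnrm] at hθ hbd
  simp only [pu] at hab
  rw [hab] at hbd
  rw [hflux]
  generalize (∑ i, ∑ j, difM D₀ D y i j * p.N i * p.N j) = kν at *
  generalize (∑ i, ∑ j, difM D₀ D y i j * p.N i *
    ∑ m, Stmt.up D.g j m y * beta (ksL l V) f ξ m y) = kb at *
  generalize Stmt.thetaPlus D.g D₀.K D.F y = θ at *
  generalize (ξ 0 + ∑ i : Fin n, x i * ξ i.succ) = ax at *
  generalize dts C.H (C.U x) x = d at *
  have hs0 := p.s0
  have hS0 := p.S0
  have hkey : (qT T x - wS C l V x) * ax = d * (p.s / p.S * ax) * θ := by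
    have : qT T x - wS C l V x = p.s / p.S * (θ * d) := by
      rw [hth]; field_simp
    rw [this]; ring
  have h3 : d * (p.s / p.S * ax) * θ ≤ d * (p.s / p.S * ax) * kν :=
    mul_le_mul_of_nonneg_left (by linarith)
      (mul_nonneg hd.le (mul_nonneg (div_pos hs0 hS0).le hax))
  have h4 : d * (p.s / p.S * ax) * kν ≤ d * (2 * kb) := by
    rw [mul_assoc]
    exact mul_le_mul_of_nonneg_left hbd hd.le
  nlinarith

/-- the field `bdB` of `PosB` for the frame of `ξ` -/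
theorem bdB_ofG [Fact (3 ≤ n)] {ξ : Fin (n + 1) → ℝ} (hξ : IsFut ξ) (hS : IsSliceL C l V f D₀)
    (hR : IsRefG l V f ξ D₀ D) (hT : D.Trapped) (T : Ten n) (hA : T.A = C.toDat.A)
    (hb : T.b = C.toDat.b) (x : E n) (hx : ‖x‖ = 1) :
    qT T x * (Shell.e0 (aa ξ) + ∑ i, aa ξ i * x i) ≤
      KSD.wB C l V (aa ξ) (fun i => Bk (ksL l V) f (difM D₀ D) (xi (aa ξ)) i) x := by
  have hN := KSD.NN_pos hξ.2
  have h1 : ξ = fun b => NN ξ * xi (aa ξ) b := funext fun b => by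
    rw [KSD.xi_aa hξ.2 hξ.1]; field_simp
  have hax : ξ 0 + ∑ i : Fin n, x i * ξ i.succ =
      NN ξ * (Shell.e0 (aa ξ) + ∑ i, aa ξ i * x i) := by
    rw [mul_add, Finset.mul_sum, KSD.e0_aa hξ.2 hξ.1]
    congr 1
    · field_simp
    · exact Finset.sum_congr rfl fun i _ => by unfold KSD.aa; field_simp
  have hp := KSL.ax_pos (aa ξ) hx
  have h := bd_genG hS hR hT hA hb hx (by rw [hax]; exact (mul_pos hN hp).le)
  rw [hax] at h
  have hB : ∀ i, Bk (ksL l V) f (difM D₀ D) ξ i (Y C.H x (C.U x)) =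
      NN ξ * Bk (ksL l V) f (difM D₀ D) (xi (aa ξ)) i (Y C.H x (C.U x)) := fun i => by
    rw [← Bk_mul, ← h1]
  have hsum : ∑ i, Bk (ksL l V) f (difM D₀ D) ξ i (Y C.H x (C.U x)) * (x i - C.toDat.b x i) =
      NN ξ * ∑ i, Bk (ksL l V) f (difM D₀ D) (xi (aa ξ)) i (Y C.H x (C.U x)) *
        (x i - C.toDat.b x i) := by
    rw [Finset.mul_sum]
    exact Finset.sum_congr rfl fun i _ => by rw [hB]; ring
  rw [hsum] at h
  unfold KSD.wB
  refine le_of_mul_le_mul_left ?_ hN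
  linarith

end Vale.Agent.P366.SH
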