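import Vale.Agent.P366.H208.S.AsmG
import Vale.Agent.P366.Kerr.DefsH

/-! Positivity of the divergence of the corrected flux field `Fa + B` from the pointwise
condition on the sum of the densities. -/

open MeasureTheory Metric Filter Topology Set
open scoped ContDiff ENNReal

noncomputable section
namespace Vale.Agent.P366.KSD

open Vale.Agent.P366 (pd E flux)
open Vale.Agent.P366.H353.N
open Vale.Agent.P366.Kerr (NullCone Psi pt sp sgn ksL ein IsKS FutTimelike DECatL IsGraph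
  IsSliceL HasDEC IsFut indG indK tng con lapse resL SharpAt alpha beta lieG inn dif
  difM IsRefH IsStrictH MixAt enD quD)
open Vale.Agent.P366.KSN (Y OO mem_OO isOpen_OO Y_cont dts sg)
open Vale.Agent.P366.KSL
open Vale.Agent.P366.SH (Bk dens alp bet)

variable {n : ℕ} {C : NullCone n} {l : Fin (n + 1) → E (n + 1) → ℝ} {V : E (n + 1) → ℝ}
  {f : E n → ℝ} {D₀ D : Stmt.Exterior n} {p : E (n + 1)} {x y : E n} {ξ : Fin (n + 1) → ℝ}

/-- the energy density in the letters of the statement -/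
theorem enD_eq (hS : IsSliceL C l V f D₀) (hm : D₀.g = D.g) (hy : ∀ᶠ z in 𝓝 y, 0 ≤ D₀.F z) :
    enD l V f ξ D y = dens (ksL l V) f D.K ξ y := by
  have hg := g_germ hS hm hy
  have hk : D.K =ᶠ[𝓝 y] D.K := Filter.EventuallyEq.rfl
  have hup : ∀ i j, Stmt.up D.g i j y = Stmt.up (indG (ksL l V) f) i j y := fun i j =>
    (up_germ hg i j).self_of_nhds
  unfold enD SH.dens
  rw [mu_germ hg hk, SH.alpha_eq hS hy ξ]
  congr 1
  exact Finset.sum_congr rfl fun i _ => Finset.sum_congr rfl fun j _ => by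
    rw [hup, mom_germ hg hk, SH.beta_eq]

/-- The energy density of `ξ` at an interior point. -/
theorem enD_nonneg [Fact (3 ≤ n)] (hS : IsSliceL C l V f D₀) (hξ : IsFut ξ)
    (hdec : D.DEC) (hmix : MixAt l V f ξ D y) (hF : D₀.F = D.F) (hm : D₀.g = D.g)
    (hy : ∀ᶠ z in 𝓝 y, 0 ≤ D₀.F z) : 0 ≤ enD l V f ξ D y := by
  rw [enD_eq hS hm hy]
  have hy0 := hy.self_of_nhds
  have hg := g_germ hS hm hy
  have hk : D.K =ᶠ[𝓝 y] D.K := Filter.EventuallyEq.rfl
  have hup : ∀ i j, Stmt.up D.g i j y = Stmt.up (indG (ksL l V) f) i j y := fun i j =>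
    (up_germ hg i j).self_of_nhds
  have hcr : Stmt.covNorm D.g (resL l f) y = Stmt.covNorm (indG (ksL l V) f) (resL l f) y := by
    unfold Stmt.covNorm
    simp only [hup]
  have hdec := hdec y (by rw [← hF]; exact hy0)
  rw [covNorm_germ hg hk, mu_germ hg hk] at hdec
  refine (dens_pos hS hξ hy hdec ?_).2.1
  rcases hmix with h | ⟨hsh, h⟩
  · exact Or.inl h
  · refine Or.inr ⟨?_, h⟩
    unfold SharpAt at hsh
    rw [mu_germ hg hk, covNorm_germ hg hk, hcr] at hsh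
    simp only [hup, mom_germ hg hk] at hsh
    exact hsh

/-- the divergence of the corrected flux field, in the frame of `ξ` -/
theorem div_FBH [Fact (3 ≤ n)] (hS : IsSliceL C l V f D₀) (hξ : IsFut ξ)
    (hR : IsRefH l V f ξ D₀ D) (hy : ∀ᶠ z in 𝓝 y, 0 ≤ D₀.F z) :
    ∑ i, pd i (fun z => Fa l V f (aa ξ) i z +
      Bk (ksL l V) f (difM D₀ D) (xi (aa ξ)) i z) y =
    1 / NN ξ * ((lapse (ksL l V) f y)⁻¹ * (enD l V f ξ D y + quD l V f ξ D₀ D y / 2)) := by
  have hy0 := hy.self_of_nhds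
  have hsB : ∀ (η : Fin (n + 1) → ℝ) i, ContDiffAt ℝ ∞ (Bk (ksL l V) f (difM D₀ D) η i) y :=
    fun η i => KSS.Bk_cd hS hy0 (fun i j => difM_cd (by rw [← hR.dom]; exact hy0) i j) η i
  have hint := SH.int_eqG hS (fun y hy => hR.geo y (by rw [← hR.dom]; exact hy)) hR.met hy ξ
  rw [enD_eq hS hR.met hy]
  unfold quD
  rw [← hint]
  have e1 : ∀ i, pd i (fun z => Fa l V f (aa ξ) i z +
      Bk (ksL l V) f (difM D₀ D) (xi (aa ξ)) i z) y = pd i (Fa l V f (aa ξ) i) y +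
      1 / NN ξ * Stmt.pd i (Bk (ksL l V) f (difM D₀ D) ξ i) y := by
    intro i
    have h1 : DifferentiableAt ℝ (Fa l V f (aa ξ) i) y :=
      (Fa_smooth hS.toIsGraph hy0 (aa ξ) i).differentiableAt (by simp)
    have h2 : DifferentiableAt ℝ (Bk (ksL l V) f (difM D₀ D) ξ i) y :=
      (hsB ξ i).differentiableAt (by simp)
    have h3 : (fun z => Bk (ksL l V) f (difM D₀ D) (xi (aa ξ)) i z) =
        fun z => 1 / NN ξ * Bk (ksL l V) f (difM D₀ D) ξ i z := by
      funext z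
      rw [← Bk_div]
      congr 1
      funext b
      exact xi_aa hξ.2 hξ.1 b
    rw [Vale.Agent.P366.Bridge.pd_eq h2]
    have h4 : (fun z => Fa l V f (aa ξ) i z +
        Bk (ksL l V) f (difM D₀ D) (xi (aa ξ)) i z) = fun z => Fa l V f (aa ξ) i z +
        1 / NN ξ * Bk (ksL l V) f (difM D₀ D) ξ i z := by
      funext z
      rw [congrFun h3 z]
    rw [h4]
    unfold pd
    rw [fderiv_fun_add h1 (h2.const_mul _), fderiv_const_mul h2]
    rfl
  simp only [e1, Finset.sum_add_distrib]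
  rw [sum_pd_Fa hS.toIsGraph hy0, ← Finset.mul_sum]
  have e2 : -∑ b, xi (aa ξ) b * ∑ i, pd i (Zf l V f b i) y =
      1 / NN ξ * (-∑ b, ξ b * ∑ i, pd i (Zf l V f b i) y) := by
    rw [mul_neg, Finset.mul_sum]
    congr 1
    exact Finset.sum_congr rfl fun b _ => by rw [xi_aa hξ.2 hξ.1]; ring
  rw [e2]
  ring

/-- the sum of the densities is nonnegative at interior points -/
theorem sum_nonnegH [Fact (3 ≤ n)] (hS : IsSliceL C l V f D₀) (hξ : IsFut ξ)
    (hR : IsRefH l V f ξ D₀ D) (hy : ∀ᶠ z in 𝓝 y, 0 ≤ D₀.F z) :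
    0 ≤ enD l V f ξ D y + quD l V f ξ D₀ D y / 2 := by
  rcases hR.int y (by rw [← hR.dom]; exact F_int hy) with ⟨h, h'⟩ | h
  · have := enD_nonneg hS hξ hR.dec h hR.dom hR.met hy
    linarith
  · exact h

/-- the divergence is nonnegative at interior points -/
theorem pos_intH [Fact (3 ≤ n)] (hS : IsSliceL C l V f D₀) (hξ : IsFut ξ)
    (hR : IsRefH l V f ξ D₀ D) (hy : ∀ᶠ z in 𝓝 y, 0 ≤ D₀.F z) :
    0 ≤ ∑ i, pd i (fun z => Fa l V f (aa ξ) i z +
      Bk (ksL l V) f (difM D₀ D) (xi (aa ξ)) i z) y := by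
  rw [div_FBH hS hξ hR hy]
  have h3 := sum_nonnegH hS hξ hR hy
  have h4 := (lapse_pos hS hy.self_of_nhds).le
  have hN := (NN_pos hξ.2).le
  positivity

/-- in the case of equality the sum of the densities vanishes at interior points -/
theorem sum_zeroH [Fact (3 ≤ n)] (hS : IsSliceL C l V f D₀) (hξ : IsFut ξ)
    (hR : IsRefH l V f ξ D₀ D) (hy : ∀ᶠ z in 𝓝 y, 0 ≤ D₀.F z)
    (h0 : ∑ i, pd i (fun z => Fa l V f (aa ξ) i z +
      Bk (ksL l V) f (difM D₀ D) (xi (aa ξ)) i z) y = 0) :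
    enD l V f ξ D y + quD l V f ξ D₀ D y / 2 = 0 := by
  rw [div_FBH hS hξ hR hy] at h0
  have h4 := lapse_pos hS hy.self_of_nhds
  have hN := NN_pos hξ.2
  have h5 := (mul_eq_zero.1 h0).resolve_left (one_div_pos.2 hN).ne'
  exact (mul_eq_zero.1 h5).resolve_left (inv_pos.2 h4).ne'

/-- the corrected flux field in the frame of `ξ`; `hbd` is the condition on the boundary -/
theorem posB_ofH [Fact (3 ≤ n)] (hS : IsSliceL C l V f D₀) (hAF₀ : D₀.IsAF) (hAF : D.IsAF)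
    (hξ : IsFut ξ) (hR : IsRefH l V f ξ D₀ D)
    {m : ℝ} {P : Fin n → ℝ} (hm : D.IsEnergy m) (hP : D.IsMomentum P)
    (hbd : ∀ T : Ten n, T.A = C.toDat.A → T.b = C.toDat.b → ∀ x : E n, ‖x‖ = 1 →
      qT T x * (Shell.e0 (aa ξ) + ∑ i, aa ξ i * x i) ≤
        wB C l V (aa ξ) (fun i => Bk (ksL l V) f (difM D₀ D) (xi (aa ξ)) i) x) :
    PosB C l V f D₀ (aa ξ) (fun i => Bk (ksL l V) f (difM D₀ D) (xi (aa ξ)) i) m P where
  toIsGraph := hS.toIsGraph
  geob := fun x hx => by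
    have hy : 0 ≤ D₀.F (Y C.H x (C.U x)) := mem_Y hS.dom hx le_rfl
    by_cases hV : V (pt (f (Y C.H x (C.U x))) (Y C.H x (C.U x))) = 0
    · exact Or.inl hV
    · exact Or.inr (hR.geo _ (by rw [← hR.dom]; exact hy) hV)
  smB := fun i y hy => KSS.Bk_cd hS hy (fun i j => difM_cd (by rw [← hR.dom]; exact hy) i j) _ i
  bdB := hbd
  pos := fun y hy => by
    refine ext_cl hS.dom (g := fun y => ∑ i, pd i (fun z => Fa l V f (aa ξ) i z +
      Bk (ksL l V) f (difM D₀ D) (xi (aa ξ)) i z) y) (fun z hz => ?_)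
      (fun z hz => pos_intH hS hξ hR hz) hy
    refine tendsto_finsetSum _ fun i _ => ?_
    exact (KSN.X5.cd_pd ((Fa_smooth hS.toIsGraph hz (aa ξ) i).add
      (KSS.Bk_cd hS hz (fun i j => difM_cd (by rw [← hR.dom]; exact hz) i j) _ i))
        i).continuousAt
  lim := KSS.flux_shearG hS hAF₀ hAF hR.dom hR.met hm hP (aa ξ)

end Vale.Agent.P366.KSD
end
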